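import Vale.Agent.P227.M.END.ToQ1
import Vale.Agent.P227.M.Loc.Main
import Vale.Agent.P227.M.MM.Fin618
import Vale.Agent.P227.M.MM.Desc290
import Vale.Agent.P227.M.MM.ToC21
import Vale.Agent.P227.M.LK.RegLL570
import Vale.Agent.P227.M.SC.Done866
import Vale.Agent.P227.M.LIN.TopG
import Vale.Agent.P227.M.LIN.ESA
import Vale.Agent.P227.M.LIN.Boch
import Vale.Agent.P227.M.LIN.AffStmt
import Vale.Agent.P227.M.LIN.HilbPf
import Vale.Agent.P227.M.ID.Key680b
import Vale.Agent.P227.M.ID.Div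
import Vale.Agent.P227.M.ID.Stein294
import Vale.Agent.P227.M.LIN.H1Stmt

namespace Vale.Agent.P227.M.FB

theorem mm : StmtMM :=
  MM.stmtMM_of_blocks SC.Sc866.stmtSC LK.H570.regLL MM.D290.stmtDesc MM.stmtToC21

theorem lin (h : LIN.StmtH1) : StmtLin :=
  LIN.T592.stmtLin_of B294.stmtIBP LIN.E456.stmtESA LIN.stmtBoch LIN.stmtConst LIN.stmtAff h LIN.stmtHilb

theorem loc (h : LIN.StmtH1) : StmtLocal :=
  stmtLocal_of B294.stmtStein B294.stmtIBP stmtDiv K680.stmtKey (lin h) mm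

theorem q1 : StmtQ1 := END.stmtQ1_of_stmtLocal (loc LIN.H1T.stmtH1)

end Vale.Agent.P227.M.FB
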